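/-
helper16: area kit (A2, A3) for the row-211 team build (S0324–S0329), on top of helper10's core
`muHE_image_plane`: the `μHE[2]`-area of a parallelogram in Euclidean 3-space, and the open
parallelogram as a bounded, relatively open subset of a plane.
-/
import Crest.Agent.Helper10.Area

set_option autoImplicit false

open MeasureTheory Measure

namespace Crest.Agent.Helper16

open Crest.Agent.Helper10 (E2 E3 muHE_image_plane)

/-- The closed unit square of the plane. -/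
def stdSquare : Set E2 := {z | z 0 ∈ Set.Icc (0 : ℝ) 1 ∧ z 1 ∈ Set.Icc (0 : ℝ) 1}

theorem volume_stdSquare : volume stdSquare = 1 := by
  have hcl : IsClosed stdSquare := by
    have h0 : Continuous fun z : E2 => z 0 := by fun_prop
    have h1 : Continuous fun z : E2 => z 1 := by fun_prop
    exact (isClosed_Icc.preimage h0).inter (isClosed_Icc.preimage h1)
  rw [← (PiLp.volume_preserving_toLp (Fin 2)).measure_preimage hcl.measurableSet.nullMeasurableSet]
  have h2 : (WithLp.toLp 2 : (Fin 2 → ℝ) → E2) ⁻¹' stdSquare =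
      Set.pi Set.univ (fun _ : Fin 2 => Set.Icc (0 : ℝ) 1) := by
    ext x
    simp only [stdSquare, Set.mem_preimage, Set.mem_ofPred_eq, Set.mem_pi, Set.mem_univ,
      forall_true_left, Fin.forall_fin_two]
  rw [h2, volume_pi_pi]
  simp

theorem parallelogram_eq_image (c a b : E3) :
    {x : E3 | ∃ s ∈ Set.Icc (0 : ℝ) 1, ∃ t ∈ Set.Icc (0 : ℝ) 1, x = c + s • a + t • b} =
      (fun z : E2 => c + z 0 • a + z 1 • b) '' stdSquare := by
  ext x
  constructor
  · rintro ⟨s, hs, t, ht, rfl⟩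
    exact ⟨!₂[s, t], ⟨by simpa using hs, by simpa using ht⟩, by simp⟩
  · rintro ⟨z, ⟨h0, h1⟩, rfl⟩
    exact ⟨z 0, h0, z 1, h1, rfl⟩

/-- **(A2)** The `μHE[2]`-area of a (possibly degenerate) closed parallelogram in Euclidean
3-space. -/
theorem area_parallelogram (c a b : E3) :
    μHE[2] {x : E3 | ∃ s ∈ Set.Icc (0 : ℝ) 1, ∃ t ∈ Set.Icc (0 : ℝ) 1, x = c + s • a + t • b} =
      ENNReal.ofReal (Real.sqrt (‖a‖ ^ 2 * ‖b‖ ^ 2 - inner ℝ a b ^ 2)) := by
  rw [parallelogram_eq_image, muHE_image_plane, volume_stdSquare, mul_one]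

/-- A vector of 3-space orthogonal to `a`, `b`, `u` is zero, when `a, b ⊥ u`, `‖u‖ = 1` and
`a, b` have positive Gram determinant. -/
theorem eq_zero_of_inner_eq_zero (u a b y : E3) (hu : ‖u‖ = 1) (ha : inner ℝ a u = 0)
    (hb : inner ℝ b u = 0) (hab : 0 < ‖a‖ ^ 2 * ‖b‖ ^ 2 - inner ℝ a b ^ 2)
    (hya : inner ℝ y a = 0) (hyb : inner ℝ y b = 0) (hyu : inner ℝ y u = 0) : y = 0 := by
  have hu' : inner ℝ u u = 1 := by rw [real_inner_self_eq_norm_sq, hu]; norm_num
  simp only [← real_inner_self_eq_norm_sq] at hab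
  simp only [PiLp.inner_apply, Fin.sum_univ_three, RCLike.inner_apply, conj_trivial] at *
  have hD2 : (a 0 * (b 1 * u 2 - b 2 * u 1) - a 1 * (b 0 * u 2 - b 2 * u 0) +
      a 2 * (b 0 * u 1 - b 1 * u 0)) ^ 2 =
      (a 0 * a 0 + a 1 * a 1 + a 2 * a 2) * (b 0 * b 0 + b 1 * b 1 + b 2 * b 2) -
        (a 0 * b 0 + a 1 * b 1 + a 2 * b 2) ^ 2 := by
    linear_combination
      ((a 0 * a 0 + a 1 * a 1 + a 2 * a 2) * (b 0 * b 0 + b 1 * b 1 + b 2 * b 2) -
        (a 0 * b 0 + a 1 * b 1 + a 2 * b 2) ^ 2) * hu' +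
      (-(a 0 * a 0 + a 1 * a 1 + a 2 * a 2) * (b 0 * u 0 + b 1 * u 1 + b 2 * u 2) +
        2 * (a 0 * b 0 + a 1 * b 1 + a 2 * b 2) * (a 0 * u 0 + a 1 * u 1 + a 2 * u 2)) * hb +
      (-(b 0 * b 0 + b 1 * b 1 + b 2 * b 2) * (a 0 * u 0 + a 1 * u 1 + a 2 * u 2)) * ha
  have hDne : a 0 * (b 1 * u 2 - b 2 * u 1) - a 1 * (b 0 * u 2 - b 2 * u 0) +
      a 2 * (b 0 * u 1 - b 1 * u 0) ≠ 0 := by
    intro h
    rw [h] at hD2
    nlinarith
  have h0 : (a 0 * (b 1 * u 2 - b 2 * u 1) - a 1 * (b 0 * u 2 - b 2 * u 0) +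
      a 2 * (b 0 * u 1 - b 1 * u 0)) * y 0 = 0 := by
    linear_combination (b 1 * u 2 - b 2 * u 1) * hya - (a 1 * u 2 - a 2 * u 1) * hyb +
      (a 1 * b 2 - a 2 * b 1) * hyu
  have h1 : (a 0 * (b 1 * u 2 - b 2 * u 1) - a 1 * (b 0 * u 2 - b 2 * u 0) +
      a 2 * (b 0 * u 1 - b 1 * u 0)) * y 1 = 0 := by
    linear_combination -(b 0 * u 2 - b 2 * u 0) * hya + (a 0 * u 2 - a 2 * u 0) * hyb -
      (a 0 * b 2 - a 2 * b 0) * hyu
  have h2 : (a 0 * (b 1 * u 2 - b 2 * u 1) - a 1 * (b 0 * u 2 - b 2 * u 0) +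
      a 2 * (b 0 * u 1 - b 1 * u 0)) * y 2 = 0 := by
    linear_combination (b 0 * u 1 - b 1 * u 0) * hya - (a 0 * u 1 - a 1 * u 0) * hyb +
      (a 0 * b 1 - a 1 * b 0) * hyu
  ext k
  fin_cases k
  · exact (mul_eq_zero.1 h0).resolve_left hDne
  · exact (mul_eq_zero.1 h1).resolve_left hDne
  · exact (mul_eq_zero.1 h2).resolve_left hDne

/-- **(A3)** The open parallelogram spanned by `a, b ⊥ u` (nondegenerate) based at `c ⊥ u` is
bounded and relatively open in the plane `u^⊥`. -/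
theorem open_parallelogram (u c a b : E3) (hu : ‖u‖ = 1) (hc : inner ℝ c u = 0)
    (ha : inner ℝ a u = 0) (hb : inner ℝ b u = 0)
    (hab : 0 < ‖a‖ ^ 2 * ‖b‖ ^ 2 - inner ℝ a b ^ 2) :
    Bornology.IsBounded {x : E3 | ∃ s ∈ Set.Ioo (0 : ℝ) 1, ∃ t ∈ Set.Ioo (0 : ℝ) 1,
        x = c + s • a + t • b} ∧
      ∃ O : Set E3, IsOpen O ∧ {x : E3 | ∃ s ∈ Set.Ioo (0 : ℝ) 1, ∃ t ∈ Set.Ioo (0 : ℝ) 1,
        x = c + s • a + t • b} = O ∩ {x | inner ℝ x u = 0} := by
  have hG : ‖a‖ ^ 2 * ‖b‖ ^ 2 - inner ℝ a b ^ 2 ≠ 0 := hab.ne'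
  have hba : inner ℝ b a = inner ℝ a b := real_inner_comm _ _
  set S : E3 → ℝ := fun x => (inner ℝ (x - c) a * ‖b‖ ^ 2 - inner ℝ (x - c) b * inner ℝ a b) /
    (‖a‖ ^ 2 * ‖b‖ ^ 2 - inner ℝ a b ^ 2) with hS
  set T : E3 → ℝ := fun x => (inner ℝ (x - c) b * ‖a‖ ^ 2 - inner ℝ (x - c) a * inner ℝ a b) /
    (‖a‖ ^ 2 * ‖b‖ ^ 2 - inner ℝ a b ^ 2) with hT
  have eS : ∀ x, S x * (‖a‖ ^ 2 * ‖b‖ ^ 2 - inner ℝ a b ^ 2) =
      inner ℝ (x - c) a * ‖b‖ ^ 2 - inner ℝ (x - c) b * inner ℝ a b := by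
    intro x
    simp only [hS]
    exact div_mul_cancel₀ _ hG
  have eT : ∀ x, T x * (‖a‖ ^ 2 * ‖b‖ ^ 2 - inner ℝ a b ^ 2) =
      inner ℝ (x - c) b * ‖a‖ ^ 2 - inner ℝ (x - c) a * inner ℝ a b := by
    intro x
    simp only [hT]
    exact div_mul_cancel₀ _ hG
  have hScont : Continuous S := by
    simp only [hS]
    fun_prop
  have hTcont : Continuous T := by
    simp only [hT]
    fun_prop
  constructor
  · rw [isBounded_iff_forall_norm_le]
    refine ⟨‖c‖ + ‖a‖ + ‖b‖, ?_⟩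
    rintro x ⟨s, hs, t, ht, rfl⟩
    have h1 : ‖s • a‖ ≤ ‖a‖ := by
      rw [norm_smul, Real.norm_of_nonneg hs.1.le]
      exact mul_le_of_le_one_left (norm_nonneg _) hs.2.le
    have h2 : ‖t • b‖ ≤ ‖b‖ := by
      rw [norm_smul, Real.norm_of_nonneg ht.1.le]
      exact mul_le_of_le_one_left (norm_nonneg _) ht.2.le
    calc ‖c + s • a + t • b‖ ≤ ‖c + s • a‖ + ‖t • b‖ := norm_add_le _ _
      _ ≤ ‖c‖ + ‖s • a‖ + ‖t • b‖ := by gcongr; exact norm_add_le _ _
      _ ≤ ‖c‖ + ‖a‖ + ‖b‖ := by gcongr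
  · refine ⟨S ⁻¹' Set.Ioo 0 1 ∩ T ⁻¹' Set.Ioo 0 1,
      (isOpen_Ioo.preimage hScont).inter (isOpen_Ioo.preimage hTcont), ?_⟩
    ext x
    constructor
    · rintro ⟨s, hs, t, ht, rfl⟩
      have hsub : c + s • a + t • b - c = s • a + t • b := by abel
      have i1 : inner ℝ (c + s • a + t • b - c) a = s * ‖a‖ ^ 2 + t * inner ℝ a b := by
        rw [hsub, inner_add_left, real_inner_smul_left, real_inner_smul_left,
          real_inner_self_eq_norm_sq, hba]
      have i2 : inner ℝ (c + s • a + t • b - c) b = s * inner ℝ a b + t * ‖b‖ ^ 2 := by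
        rw [hsub, inner_add_left, real_inner_smul_left, real_inner_smul_left,
          real_inner_self_eq_norm_sq]
      have hSx : S (c + s • a + t • b) = s := by
        apply mul_right_cancel₀ hG
        rw [eS, i1, i2]
        ring
      have hTx : T (c + s • a + t • b) = t := by
        apply mul_right_cancel₀ hG
        rw [eT, i1, i2]
        ring
      refine ⟨⟨?_, ?_⟩, ?_⟩
      · rw [Set.mem_preimage, hSx]; exact hs
      · rw [Set.mem_preimage, hTx]; exact ht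
      · show inner ℝ (c + s • a + t • b) u = 0
        rw [inner_add_left, inner_add_left, real_inner_smul_left, real_inner_smul_left, hc, ha, hb]
        ring
    · rintro ⟨⟨hSx, hTx⟩, hxu⟩
      have hxu' : inner ℝ x u = 0 := hxu
      refine ⟨S x, hSx, T x, hTx, ?_⟩
      have hy : x - c - S x • a - T x • b = 0 := by
        apply eq_zero_of_inner_eq_zero u a b _ hu ha hb hab
        · rw [inner_sub_left, inner_sub_left, real_inner_smul_left, real_inner_smul_left,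
            real_inner_self_eq_norm_sq, hba]
          have h := eS x
          have h' := eT x
          have key : (‖a‖ ^ 2 * ‖b‖ ^ 2 - inner ℝ a b ^ 2) *
              (inner ℝ (x - c) a - S x * ‖a‖ ^ 2 - T x * inner ℝ a b) = 0 := by
            linear_combination (-‖a‖ ^ 2) * h + (-inner ℝ a b) * h'
          exact (mul_eq_zero.1 key).resolve_left hG
        · rw [inner_sub_left, inner_sub_left, real_inner_smul_left, real_inner_smul_left,
            real_inner_self_eq_norm_sq]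
          have h := eS x
          have h' := eT x
          have key : (‖a‖ ^ 2 * ‖b‖ ^ 2 - inner ℝ a b ^ 2) *
              (inner ℝ (x - c) b - S x * inner ℝ a b - T x * ‖b‖ ^ 2) = 0 := by
            linear_combination (-inner ℝ a b) * h + (-‖b‖ ^ 2) * h'
          exact (mul_eq_zero.1 key).resolve_left hG
        · rw [inner_sub_left, inner_sub_left, inner_sub_left, real_inner_smul_left,
            real_inner_smul_left, hxu', hc, ha, hb]
          ring
      calc x = (x - c - S x • a - T x • b) + (c + S x • a + T x • b) := by abel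
        _ = c + S x • a + T x • b := by rw [hy, zero_add]

end Crest.Agent.Helper16
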