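import Mathlib

set_option autoImplicit false

namespace Crest.Agent.Helper16

/-- Three vectors of `ℝ³` orthogonal to a unit vector are linearly dependent: their Gram
determinant vanishes (written out). -/
theorem gram_det_zero (e w x y : EuclideanSpace ℝ (Fin 3)) (he : ‖e‖ = 1)
    (hw : inner ℝ w e = 0) (hx : inner ℝ x e = 0) (hy : inner ℝ y e = 0) :
    ‖w‖ ^ 2 * (‖x‖ ^ 2 * ‖y‖ ^ 2 - inner ℝ x y ^ 2) =
      ‖x‖ ^ 2 * inner ℝ y w ^ 2 + ‖y‖ ^ 2 * inner ℝ x w ^ 2 -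
        2 * inner ℝ x y * inner ℝ x w * inner ℝ y w := by
  have he' : inner ℝ e e = 1 := by rw [real_inner_self_eq_norm_sq, he]; norm_num
  simp only [← real_inner_self_eq_norm_sq]
  simp only [PiLp.inner_apply, Fin.sum_univ_three, RCLike.inner_apply, conj_trivial] at *
  linear_combination
    ((x 0 * (y 1 * w 2 - y 2 * w 1) - x 1 * (y 0 * w 2 - y 2 * w 0) + x 2 * (y 0 * w 1 - y 1 * w 0)) *
      (e 0 * (y 1 * w 2 - y 2 * w 1) - e 1 * (y 0 * w 2 - y 2 * w 0) + e 2 * (y 0 * w 1 - y 1 * w 0))) * hx +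
    ((x 0 * (y 1 * w 2 - y 2 * w 1) - x 1 * (y 0 * w 2 - y 2 * w 0) + x 2 * (y 0 * w 1 - y 1 * w 0)) *
      (x 0 * (e 1 * w 2 - e 2 * w 1) - x 1 * (e 0 * w 2 - e 2 * w 0) + x 2 * (e 0 * w 1 - e 1 * w 0))) * hy +
    ((x 0 * (y 1 * w 2 - y 2 * w 1) - x 1 * (y 0 * w 2 - y 2 * w 0) + x 2 * (y 0 * w 1 - y 1 * w 0)) *
      (x 0 * (y 1 * e 2 - y 2 * e 1) - x 1 * (y 0 * e 2 - y 2 * e 0) + x 2 * (y 0 * e 1 - y 1 * e 0))) * hw -
    (x 0 * (y 1 * w 2 - y 2 * w 1) - x 1 * (y 0 * w 2 - y 2 * w 0) + x 2 * (y 0 * w 1 - y 1 * w 0)) ^ 2 * he'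

/-- Gram determinant of the projections of `x, y ⊥ e` along `u = e + w` (`w ⊥ e`, `‖e‖ = 1`) onto
`u^⊥`. -/
theorem gram_proj (e w x y : EuclideanSpace ℝ (Fin 3)) (he : ‖e‖ = 1) (hw : inner ℝ w e = 0)
    (hx : inner ℝ x e = 0) (hy : inner ℝ y e = 0) :
    let u := e + w
    let π := fun z : EuclideanSpace ℝ (Fin 3) => z - (inner ℝ z u / ‖u‖ ^ 2) • u
    ‖π x‖ ^ 2 * ‖π y‖ ^ 2 - inner ℝ (π x) (π y) ^ 2 =
      (‖x‖ ^ 2 * ‖y‖ ^ 2 - inner ℝ x y ^ 2) / (1 + ‖w‖ ^ 2) := by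
  intro u π
  have hdet := gram_det_zero e w x y he hw hx hy
  have hew : inner ℝ e w = 0 := by rw [real_inner_comm]; exact hw
  have hU : ‖u‖ ^ 2 = 1 + ‖w‖ ^ 2 := by
    have : ‖u‖ ^ 2 = inner ℝ (e + w) (e + w) := by rw [real_inner_self_eq_norm_sq]
    rw [this, inner_add_left, inner_add_right, inner_add_right, hew, hw,
      real_inner_self_eq_norm_sq, real_inner_self_eq_norm_sq, he]
    ring
  have hUpos : (0 : ℝ) < 1 + ‖w‖ ^ 2 := by positivity
  have hxu : inner ℝ x u = inner ℝ x w := by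
    show inner ℝ x (e + w) = _
    rw [inner_add_right, hx, zero_add]
  have hyu : inner ℝ y u = inner ℝ y w := by
    show inner ℝ y (e + w) = _
    rw [inner_add_right, hy, zero_add]
  have hux : inner ℝ u x = inner ℝ x w := by rw [real_inner_comm]; exact hxu
  have huy : inner ℝ u y = inner ℝ y w := by rw [real_inner_comm]; exact hyu
  have huu : inner ℝ u u = 1 + ‖w‖ ^ 2 := by rw [real_inner_self_eq_norm_sq]; exact hU
  have hyx : inner ℝ y x = inner ℝ x y := real_inner_comm _ _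
  have h1 : ‖π x‖ ^ 2 = ‖x‖ ^ 2 - inner ℝ x w ^ 2 / (1 + ‖w‖ ^ 2) := by
    have : ‖π x‖ ^ 2 = inner ℝ (π x) (π x) := by rw [real_inner_self_eq_norm_sq]
    rw [this]
    show inner ℝ (x - (inner ℝ x u / ‖u‖ ^ 2) • u) (x - (inner ℝ x u / ‖u‖ ^ 2) • u) = _
    rw [inner_sub_left, inner_sub_right, inner_sub_right, real_inner_smul_left, real_inner_smul_right,
      real_inner_smul_left, real_inner_smul_right, hU, hxu, hux, huu, real_inner_self_eq_norm_sq]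
    field_simp
    ring
  have h2 : ‖π y‖ ^ 2 = ‖y‖ ^ 2 - inner ℝ y w ^ 2 / (1 + ‖w‖ ^ 2) := by
    have : ‖π y‖ ^ 2 = inner ℝ (π y) (π y) := by rw [real_inner_self_eq_norm_sq]
    rw [this]
    show inner ℝ (y - (inner ℝ y u / ‖u‖ ^ 2) • u) (y - (inner ℝ y u / ‖u‖ ^ 2) • u) = _
    rw [inner_sub_left, inner_sub_right, inner_sub_right, real_inner_smul_left, real_inner_smul_right,
      real_inner_smul_left, real_inner_smul_right, hU, hyu, huy, huu, real_inner_self_eq_norm_sq]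
    field_simp
    ring
  have h3 : inner ℝ (π x) (π y) = inner ℝ x y - inner ℝ x w * inner ℝ y w / (1 + ‖w‖ ^ 2) := by
    show inner ℝ (x - (inner ℝ x u / ‖u‖ ^ 2) • u) (y - (inner ℝ y u / ‖u‖ ^ 2) • u) = _
    rw [inner_sub_left, inner_sub_right, inner_sub_right, real_inner_smul_left, real_inner_smul_right,
      real_inner_smul_left, real_inner_smul_right, hU, hxu, hyu, huy, huu]
    field_simp
    ring
  rw [h1, h2, h3]
  field_simp
  linear_combination (1 + ‖w‖ ^ 2) * hdet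

end Crest.Agent.Helper16
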