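import Mathlib

set_option autoImplicit false

namespace Crest.Agent.Helper16

open MeasureTheory Set

/-- Telescoping sum over a partition indexed by `Fin (N + 1)`. -/
theorem fin_sum_sub_telescope (N : ℕ) (t : Fin (N + 1) → ℝ) :
    ∑ i : Fin N, (t i.succ - t i.castSucc) = t (Fin.last N) - t 0 := by
  set a : ℕ → ℝ := fun k => if h : k < N + 1 then t ⟨k, h⟩ else 0 with ha
  have h1 : ∀ i : Fin N, a i = t i.castSucc := by
    intro i
    have hi : (i : ℕ) < N + 1 := by omega
    simp only [ha, dif_pos hi]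
    rfl
  have h2 : ∀ i : Fin N, a (i + 1) = t i.succ := by
    intro i
    have hi : (i : ℕ) + 1 < N + 1 := by omega
    simp only [ha, dif_pos hi]
    rfl
  have h3 : ∑ i : Fin N, (t i.succ - t i.castSucc) = ∑ k ∈ Finset.range N, (a (k + 1) - a k) := by
    rw [← Fin.sum_univ_eq_sum_range (fun k => a (k + 1) - a k) N]
    refine Finset.sum_congr rfl (fun i _ => ?_)
    rw [h1, h2]
  rw [h3, Finset.sum_range_sub]
  have hN : a N = t (Fin.last N) := by
    have hi : N < N + 1 := by omega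
    simp only [ha, dif_pos hi]
    rfl
  have h0 : a 0 = t 0 := by
    have hi : 0 < N + 1 := by omega
    simp only [ha, dif_pos hi]
    rfl
  rw [hN, h0]

/-- Additivity of the interval integral over a partition indexed by `Fin (N + 1)`. -/
theorem fin_sum_integral_adjacent (N : ℕ) (t : Fin (N + 1) → ℝ) (F : ℝ → ℝ)
    (hint : ∀ i : Fin N, IntervalIntegrable F volume (t i.castSucc) (t i.succ)) :
    ∑ i : Fin N, ∫ τ in t i.castSucc..t i.succ, F τ = ∫ τ in t 0..t (Fin.last N), F τ := by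
  set a : ℕ → ℝ := fun k => if h : k < N + 1 then t ⟨k, h⟩ else 0 with ha
  have h1 : ∀ i : Fin N, a i = t i.castSucc := by
    intro i
    have hi : (i : ℕ) < N + 1 := by omega
    simp only [ha, dif_pos hi]
    rfl
  have h2 : ∀ i : Fin N, a (i + 1) = t i.succ := by
    intro i
    have hi : (i : ℕ) + 1 < N + 1 := by omega
    simp only [ha, dif_pos hi]
    rfl
  have h3 : ∑ i : Fin N, ∫ τ in t i.castSucc..t i.succ, F τ =
      ∑ k ∈ Finset.range N, ∫ τ in a k..a (k + 1), F τ := by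
    rw [← Fin.sum_univ_eq_sum_range (fun k => ∫ τ in a k..a (k + 1), F τ) N]
    refine Finset.sum_congr rfl (fun i _ => ?_)
    rw [h1, h2]
  have hN : a N = t (Fin.last N) := by
    have hi : N < N + 1 := by omega
    simp only [ha, dif_pos hi]
    rfl
  have h0 : a 0 = t 0 := by
    have hi : 0 < N + 1 := by omega
    simp only [ha, dif_pos hi]
    rfl
  rw [h3, intervalIntegral.sum_integral_adjacent_intervals, hN, h0]
  intro k hk
  have := hint ⟨k, hk⟩
  rw [← h1, ← h2] at this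
  exact this

/-- Riemann-sum estimate for the radial sweep: tagged sums of `ρ_i² / (2 √(1 + ‖w (c_i)‖²))`,
with `ρ_i` squeezed between values of `R` on the `i`-th piece up to `C * mesh`, converge to
`∫ R² / (2 √(1 + ‖w‖²))`. -/
theorem riemann_sweep {α β : ℝ} (hαβ : α < β) (R : ℝ → ℝ) (hR : ContinuousOn R (Set.Icc α β))
    (hR0 : ∀ t ∈ Set.Icc α β, 0 ≤ R t) (w : ℝ → EuclideanSpace ℝ (Fin 3))
    (hw : ContinuousOn w (Set.Icc α β)) (C : ℝ) (hC : 0 ≤ C) (η : ℝ) (hη : 0 < η) :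
    ∃ δ : ℝ, 0 < δ ∧ ∀ (N : ℕ) (t : Fin (N + 1) → ℝ) (c : Fin N → ℝ) (ρ : Fin N → ℝ),
      StrictMono t → t 0 = α → t (Fin.last N) = β →
      (∀ i : Fin N, t i.succ - t i.castSucc ≤ δ) →
      (∀ i : Fin N, t i.castSucc ≤ c i ∧ c i ≤ t i.succ) →
      (∀ i : Fin N, ∃ τ ∈ Set.Icc (t i.castSucc) (t i.succ),
        ∃ τ' ∈ Set.Icc (t i.castSucc) (t i.succ),
          R τ ≤ ρ i ∧ ρ i ≤ R τ' + C * (t i.succ - t i.castSucc)) →
      |∑ i : Fin N, (t i.succ - t i.castSucc) * (ρ i ^ 2 / (2 * Real.sqrt (1 + ‖w (c i)‖ ^ 2))) -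
        ∫ τ in α..β, R τ ^ 2 / (2 * Real.sqrt (1 + ‖w τ‖ ^ 2))| ≤ η := by
  have hβα : 0 < β - α := sub_pos.2 hαβ
  -- the weight `g`
  set g : ℝ → ℝ := fun τ => (2 * Real.sqrt (1 + ‖w τ‖ ^ 2))⁻¹ with hg
  have hsq1 : ∀ τ, 1 ≤ Real.sqrt (1 + ‖w τ‖ ^ 2) := by
    intro τ
    rw [Real.one_le_sqrt]
    nlinarith [sq_nonneg ‖w τ‖]
  have hg_pos : ∀ τ, 0 < g τ := by
    intro τ
    have := hsq1 τ
    simp only [hg]
    positivity
  have hg_le : ∀ τ, g τ ≤ 1 / 2 := by
    intro τ
    have h1 := hsq1 τ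
    calc g τ = (2 * Real.sqrt (1 + ‖w τ‖ ^ 2))⁻¹ := rfl
      _ ≤ (2 : ℝ)⁻¹ := inv_anti₀ (by norm_num) (by linarith)
      _ = 1 / 2 := by norm_num
  have hg_cont : ContinuousOn g (Icc α β) := by
    apply ContinuousOn.inv₀
    · exact continuousOn_const.mul
        (Real.continuous_sqrt.comp_continuousOn (continuousOn_const.add (hw.norm.pow 2)))
    · intro τ _
      have := hsq1 τ
      positivity
  -- the integrand
  set F : ℝ → ℝ := fun τ => R τ ^ 2 / (2 * Real.sqrt (1 + ‖w τ‖ ^ 2)) with hF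
  have hFg : ∀ τ, F τ = R τ ^ 2 * g τ := fun τ => by simp only [hF, hg, div_eq_mul_inv]
  have hF_cont : ContinuousOn F (Icc α β) := by
    have : F = fun τ => R τ ^ 2 * g τ := funext hFg
    rw [this]
    exact (hR.pow 2).mul hg_cont
  -- bound for `R`
  obtain ⟨B, hB⟩ := isCompact_Icc.exists_bound_of_continuousOn hR
  have hαmem : α ∈ Icc α β := ⟨le_refl _, hαβ.le⟩
  have hB0 : 0 ≤ B := (norm_nonneg _).trans (hB α hαmem)
  have hRB : ∀ τ ∈ Icc α β, R τ ≤ B := fun τ hτ => (le_abs_self _).trans (hB τ hτ)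
  -- constants
  set K : ℝ := 2 * B + C + B ^ 2 + 1 with hK
  have hKpos : 0 < K := by positivity
  set ε : ℝ := η / ((β - α) * K) with hε
  have hεpos : 0 < ε := by positivity
  have hεK : ε * K * (β - α) = η := by
    simp only [hε]
    field_simp
  -- uniform continuity
  have hRu := isCompact_Icc.uniformContinuousOn_of_continuous hR
  have hgu := isCompact_Icc.uniformContinuousOn_of_continuous hg_cont
  rw [Metric.uniformContinuousOn_iff] at hRu hgu
  obtain ⟨δ₁, hδ₁, hR1⟩ := hRu ε hεpos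
  obtain ⟨δ₂, hδ₂, hg1⟩ := hgu ε hεpos
  have hC1 : 0 < C + 1 := by linarith
  refine ⟨min (min (δ₁ / 2) (δ₂ / 2)) (min 1 (ε / (C + 1))), by positivity, ?_⟩
  intro N t c ρ hmono h0 hN hmesh hc hρ
  have ht_mem : ∀ j : Fin (N + 1), t j ∈ Icc α β := fun j =>
    ⟨h0 ▸ hmono.monotone (Fin.zero_le j), hN ▸ hmono.monotone (Fin.le_last j)⟩
  have hlt : ∀ i : Fin N, t i.castSucc < t i.succ := fun i => hmono (Fin.castSucc_lt_succ)
  have hsub : ∀ i : Fin N, Icc (t i.castSucc) (t i.succ) ⊆ Icc α β := fun i =>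
    Icc_subset_Icc (ht_mem _).1 (ht_mem _).2
  have hint : ∀ i : Fin N, IntervalIntegrable F volume (t i.castSucc) (t i.succ) := by
    intro i
    apply ContinuousOn.intervalIntegrable
    rw [uIcc_of_le (hlt i).le]
    exact hF_cont.mono (hsub i)
  -- per-piece estimate
  have hpiece : ∀ i : Fin N,
      |(t i.succ - t i.castSucc) * (ρ i ^ 2 / (2 * Real.sqrt (1 + ‖w (c i)‖ ^ 2))) -
        ∫ τ in t i.castSucc..t i.succ, F τ| ≤ ε * K * (t i.succ - t i.castSucc) := by
    intro i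
    have hΔ := hmesh i
    have hΔ1 : t i.succ - t i.castSucc ≤ δ₁ / 2 :=
      hΔ.trans ((min_le_left _ _).trans (min_le_left _ _))
    have hΔ2 : t i.succ - t i.castSucc ≤ δ₂ / 2 :=
      hΔ.trans ((min_le_left _ _).trans (min_le_right _ _))
    have hΔ3 : t i.succ - t i.castSucc ≤ 1 :=
      hΔ.trans ((min_le_right _ _).trans (min_le_left _ _))
    have hΔ4 : t i.succ - t i.castSucc ≤ ε / (C + 1) :=
      hΔ.trans ((min_le_right _ _).trans (min_le_right _ _))
    have hΔ0 : 0 < t i.succ - t i.castSucc := sub_pos.2 (hlt i)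
    have hCΔ : C * (t i.succ - t i.castSucc) ≤ ε := by
      calc C * (t i.succ - t i.castSucc) ≤ C * (ε / (C + 1)) :=
            mul_le_mul_of_nonneg_left hΔ4 hC
        _ = ε * (C / (C + 1)) := by ring
        _ ≤ ε * 1 := by
            apply mul_le_mul_of_nonneg_left _ hεpos.le
            rw [div_le_one hC1]
            linarith
        _ = ε := mul_one _
    have hCΔ' : C * (t i.succ - t i.castSucc) ≤ C := by
      calc C * (t i.succ - t i.castSucc) ≤ C * 1 := mul_le_mul_of_nonneg_left hΔ3 hC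
        _ = C := mul_one _
    obtain ⟨τ₁, hτ₁, τ₂, hτ₂, hlow, hupp⟩ := hρ i
    have hcmem : c i ∈ Icc (t i.castSucc) (t i.succ) := hc i
    -- distance between two points of the piece
    have hdist : ∀ x ∈ Icc (t i.castSucc) (t i.succ), ∀ y ∈ Icc (t i.castSucc) (t i.succ),
        dist x y ≤ t i.succ - t i.castSucc := by
      intro x hx y hy
      rw [Real.dist_eq, abs_le]
      constructor <;> linarith [hx.1, hx.2, hy.1, hy.2]
    have hRclose : ∀ x ∈ Icc (t i.castSucc) (t i.succ), ∀ y ∈ Icc (t i.castSucc) (t i.succ),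
        |R x - R y| < ε := by
      intro x hx y hy
      have := hR1 x (hsub i hx) y (hsub i hy) (by linarith [hdist x hx y hy])
      rwa [Real.dist_eq] at this
    have hgclose : ∀ x ∈ Icc (t i.castSucc) (t i.succ), ∀ y ∈ Icc (t i.castSucc) (t i.succ),
        |g x - g y| < ε := by
      intro x hx y hy
      have := hg1 x (hsub i hx) y (hsub i hy) (by linarith [hdist x hx y hy])
      rwa [Real.dist_eq] at this
    have hρ0 : 0 ≤ ρ i := (hR0 τ₁ (hsub i hτ₁)).trans hlow
    have hρB : ρ i ≤ B + C := by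
      have := hRB τ₂ (hsub i hτ₂)
      linarith
    -- pointwise bound
    have hpt : ∀ τ ∈ Icc (t i.castSucc) (t i.succ),
        |ρ i ^ 2 * g (c i) - F τ| ≤ ε * K := by
      intro τ hτ
      have hr0 : 0 ≤ R τ := hR0 τ (hsub i hτ)
      have hrB : R τ ≤ B := hRB τ (hsub i hτ)
      have e1 : |ρ i - R τ| ≤ 2 * ε := by
        have a1 := (abs_lt.1 (hRclose τ₁ hτ₁ τ hτ))
        have a2 := (abs_lt.1 (hRclose τ₂ hτ₂ τ hτ))
        rw [abs_le]
        constructor <;> linarith [a1.1, a1.2, a2.1, a2.2]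
      have e4 : |g (c i) - g τ| ≤ ε := (hgclose (c i) hcmem τ hτ).le
      have hgc0 := (hg_pos (c i)).le
      have hgc1 := hg_le (c i)
      rw [hFg]
      have hsplit : ρ i ^ 2 * g (c i) - R τ ^ 2 * g τ =
          (ρ i - R τ) * ((ρ i + R τ) * g (c i)) + R τ ^ 2 * (g (c i) - g τ) := by ring
      rw [hsplit]
      have hA : 0 ≤ (ρ i + R τ) * g (c i) := mul_nonneg (by linarith) hgc0
      have hA' : (ρ i + R τ) * g (c i) ≤ (2 * B + C) * (1 / 2) := by
        apply mul_le_mul _ hgc1 hgc0 (by linarith)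
        linarith
      have hr2 : R τ ^ 2 ≤ B ^ 2 := by nlinarith
      calc |(ρ i - R τ) * ((ρ i + R τ) * g (c i)) + R τ ^ 2 * (g (c i) - g τ)|
          ≤ |(ρ i - R τ) * ((ρ i + R τ) * g (c i))| + |R τ ^ 2 * (g (c i) - g τ)| := abs_add_le _ _
        _ = |ρ i - R τ| * ((ρ i + R τ) * g (c i)) + R τ ^ 2 * |g (c i) - g τ| := by
            rw [abs_mul (ρ i - R τ), abs_mul (R τ ^ 2), abs_of_nonneg hA, abs_of_nonneg (sq_nonneg (R τ))]
        _ ≤ (2 * ε) * ((2 * B + C) * (1 / 2)) + B ^ 2 * ε := by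
            apply add_le_add
            · exact mul_le_mul e1 hA' hA (by positivity)
            · exact mul_le_mul hr2 e4 (abs_nonneg _) (by positivity)
        _ ≤ ε * K := by
            simp only [hK]
            nlinarith
    -- integral form
    have hconst : (t i.succ - t i.castSucc) * (ρ i ^ 2 / (2 * Real.sqrt (1 + ‖w (c i)‖ ^ 2))) =
        ∫ _τ in t i.castSucc..t i.succ, ρ i ^ 2 * g (c i) := by
      rw [intervalIntegral.integral_const, smul_eq_mul]
      simp only [hg, div_eq_mul_inv]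
    rw [hconst, ← intervalIntegral.integral_sub intervalIntegrable_const (hint i)]
    have := intervalIntegral.norm_integral_le_of_norm_le_const
      (a := t i.castSucc) (b := t i.succ) (C := ε * K)
      (f := fun τ => ρ i ^ 2 * g (c i) - F τ) (by
        intro τ hτ
        rw [uIoc_of_le (hlt i).le] at hτ
        rw [Real.norm_eq_abs]
        exact hpt τ ⟨hτ.1.le, hτ.2⟩)
    rw [Real.norm_eq_abs, abs_of_pos hΔ0] at this
    exact this
  -- sum up
  have hsplit : ∫ τ in α..β, F τ = ∑ i : Fin N, ∫ τ in t i.castSucc..t i.succ, F τ := by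
    rw [fin_sum_integral_adjacent N t F hint, h0, hN]
  rw [hsplit, ← Finset.sum_sub_distrib]
  calc |∑ i : Fin N, ((t i.succ - t i.castSucc) * (ρ i ^ 2 / (2 * Real.sqrt (1 + ‖w (c i)‖ ^ 2))) -
          ∫ τ in t i.castSucc..t i.succ, F τ)|
      ≤ ∑ i : Fin N, |(t i.succ - t i.castSucc) * (ρ i ^ 2 / (2 * Real.sqrt (1 + ‖w (c i)‖ ^ 2))) -
          ∫ τ in t i.castSucc..t i.succ, F τ| := Finset.abs_sum_le_sum_abs _ _
    _ ≤ ∑ i : Fin N, ε * K * (t i.succ - t i.castSucc) := Finset.sum_le_sum (fun i _ => hpiece i)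
    _ = ε * K * (β - α) := by
        rw [← Finset.mul_sum, fin_sum_sub_telescope, h0, hN]
    _ = η := hεK
    _ ≤ η := le_refl _

end Crest.Agent.Helper16
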